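import Vale.Agent.P011UF2j.Rt
import Vale.Agent.P011UF2.Kit
import Vale.Agent.P011UF.Tool

/-!
The stable subgroup of type `A₂` of an isotropic form of `E₆`.
-/

set_option autoImplicit false
set_option linter.all false

namespace Vale.Agent.P011UF2j

open Matrix Vale.Agent.P011L Vale.Agent.P183CH Vale.Agent.P011U Vale.Agent.P011UP
  Vale.Agent.P011UTS Vale.Agent.P183CH.Chev Vale.Agent.P011UF2
open Vale.Agent.P011UF (RA ra_cj st_of_ra fixroot fix_cj nm_cj PL an not_ani' of_ps)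
open Vale.Agent.P011UQ (um)

section

variable {R : RS} {K G : Type} [Field K] [Infinite K] [Group G] {Γ : RG R K G} (hΓ : Γ.Ok)
  (hR : R.Ok) {g n : G} {w : R.Aut} {J : Set (Fin R.r)} {γ : R.Q} {N : ℤ}
include hΓ hR

theorem act (hN : P011UD7.SL R N) {ψ : MulAut G} {σ : K ≃+* K} {c : Fin R.r → Kˣ}
    {π : Equiv.Perm (Fin R.r)} (h : Std Γ ψ σ g c π) (hn : Γ.Rep n w) (hg : g * n⁻¹ ∈ Γ.GJ J)
    (hγ : γ ∈ R.Φ) (hπ : ∀ i, γ (π i) = γ i) (hp : w γ ∈ R.Pos) (h0 : ∀ j ∈ J, R.pr (w γ) j = 0) :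
    RA Γ ψ σ γ (w γ) ∧ RA Γ ψ σ (-γ) (-w γ) ∧
      ∀ t, ψ (co hΓ γ t) = co hΓ (w γ) (Units.map (σ : K →* K) t) := by
  obtain ⟨d, hd⟩ := std_x hΓ h hR γ hγ
  obtain ⟨a, ha⟩ := hΓ.rep_conj hR hn hγ
  obtain ⟨b, hb⟩ := scal hΓ hR hN hp h0 hg (.inl rfl)
  obtain ⟨b', hb'⟩ := scal hΓ hR hN hp h0 hg (.inr rfl)
  rw [show pm π γ = γ from funext fun i => by rw [pm, ← hπ, Equiv.apply_symm_apply]] at hd
  refine ⟨⟨b * (a * d), fun u => ?_⟩, ⟨b' * ((a⁻¹ : Kˣ) * (d⁻¹ : Kˣ)), fun u => ?_⟩, fun t => ?_⟩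
  · rw [(hd u).1, mul_assoc b, mul_assoc (a : K), ← hb, ← (ha _).1]
    group
  · rw [(hd u).2, mul_assoc b', mul_assoc (_ : K), ← hb', ← (ha _).2]
    group
  · rw [std_co hΓ h hπ, ← co_cen hΓ hg (fun j hj => (pw_pr hR hN _ j).trans (h0 j hj)),
      ← rep_cor hΓ hR hN hn]
    group

variable {e : Fin R.r ≃ Fin 6} (he : Ty R CartanMatrix.E₆ e)
include he

theorem in_J2 (hg : g ∈ Γ.GJ (J0 e)) (h : ∀ s, g * co hΓ (lam e) s * g⁻¹ = co hΓ (lam e) s) :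
    g ∈ Γ.GJ {j | e j ≠ 1 ∧ e j ≠ 3} := by
  have d := rt_dom he ![5, 8, 10, 15, 10, 5] (fun a => a ≠ 1 ∧ a ≠ 3) (by decide) (by decide)
  refine (conj_co hΓ hR d d fun s => ?_).1
  rw [show rt e ![5, 8, 10, 15, 10, 5] = lam e + rt e ![4, 8, 8, 12, 8, 4] from funext fun i =>
    (by decide : ∀ a : Fin 6, (![5, 8, 10, 15, 10, 5] : Fin 6 → ℤ) a =
      ![1, 0, 2, 3, 2, 1] a + ![4, 8, 8, 12, 8, 4] a) (e i), co_add, ← conj_mul, h,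
    co_cen hΓ hg (rt_dom he _ (· ≠ 1) (by decide) (by decide)).1]

theorem dich (hg : g ∈ Γ.GJ (J0 e)) {ε : ℤˣ}
    (h : ∀ s, g * co hΓ (lam e) s * g⁻¹ = co hΓ (lam e) s ^ (ε : ℤ)) :
    ∃ n w, Γ.Rep n w ∧ g * n⁻¹ ∈ Γ.GJ {j | e j ≠ 1 ∧ e j ≠ 3} ∧
      (ε = 1 ∧ w (rt e ![0, 1, 0, 0, 0, 0]) = rt e ![0, 1, 0, 0, 0, 0] ∧
          w (rt e ![1, 1, 2, 3, 2, 1]) = rt e ![1, 1, 2, 3, 2, 1] ∨
        ε ≠ 1 ∧ w (rt e ![0, 1, 0, 0, 0, 0]) = rt e ![1, 1, 2, 3, 2, 1] ∧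
          w (rt e ![1, 1, 2, 3, 2, 1]) = rt e ![0, 1, 0, 0, 0, 0]) := by
  obtain ⟨N, hN⟩ := sl_E6 he hR
  rcases Int.units_eq_one_or ε with rfl | rfl
  · exact ⟨1, 1, RG.rep_T (one_mem _), by simpa using in_J2 hΓ hR he hg (by simpa using h),
      .inl ⟨rfl, rfl, rfl⟩⟩
  obtain ⟨n, h1, hn⟩ := RG.exists_rep' (Γ := Γ) (w1_mem e)
  refine ⟨n, _, hn, in_J2 hΓ hR he (mul_mem hg (inv_mem (hΓ.NJ_le hR h1))) fun s => ?_,
    .inr ⟨by decide, w1_a he hR, w1_b he hR⟩⟩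
  have h2 := rep_cor hΓ hR hN hn (rt e ![1, 0, 2, 3, 2, 1]) s⁻¹
  rw [w1, rt_wd he hR, show l1.foldr s6 ![1, 0, 2, 3, 2, 1] = -![1, 0, 2, 3, 2, 1] by decide] at h2
  have h3 : n * co hΓ (lam e) s⁻¹ * n⁻¹ = co hΓ (lam e) s := h2.trans (co_neg hΓ s⁻¹)
  rw [← h3, show ∀ x : G, g * n⁻¹ * (n * x * n⁻¹) * (g * n⁻¹)⁻¹ = g * x * g⁻¹ from
    fun x => by group, h, h3]
  simp

end

variable {k K : Type} [Field k] [Field K] [Algebra k K] [IsSepClosure k K] {D : Chev}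
  {T : Tw k (D.grp K)}

theorem tool (ia : IA) (hk : Glob k) (hD : SC D) {e : Fin D.R.r ≃ Fin 6}
    (he : Ty D.R CartanMatrix.E₆ e) (hT : PL T (J0 e)) {N : Subgroup (D.grp K)}
    (hN : ∀ g ∈ T.fix, ∀ x ∈ N, g * x * g⁻¹ ∈ N)
    (hU : ∀ g ∈ T.fix, g ∈ UP (GG D K) (J0 e) → g ∈ N) {ε : (K ≃ₐ[k] K) →* ℤˣ}
    (hε : ∀ σ t, T.a σ (co GG_ok (lam e) t) = co GG_ok (lam e) (um σ t) ^ (ε σ : ℤ)) {a b : Kˣ}
    (hs : Sw ε (a : K) b) : (GG D K).h (e.symm 1) (a * b) * co GG_ok (lam e) a ∈ N := by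
  haveI := Glob.inf hk
  haveI := Infinite.of_injective _ (algebraMap k K).injective
  have hR := R_ok D
  have hΓ := GG_ok (D := D) (k := K)
  obtain ⟨M, hM⟩ := sl_E6 he hR
  obtain ⟨A, hA⟩ : ∃ A, A = rt e ![0, 1, 0, 0, 0, 0] := ⟨_, rfl⟩
  obtain ⟨B, hB⟩ : ∃ B, B = rt e ![1, 1, 2, 3, 2, 1] := ⟨_, rfl⟩
  obtain ⟨θ, hθ⟩ : ∃ B, B = rt e ![1, 2, 2, 3, 2, 1] := ⟨_, rfl⟩
  have eA : D.R.α (e.symm 1) = A := hA ▸ a_eq
  have eθ : θ = A + B := hA ▸ hB ▸ hθ ▸ funext fun i =>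
    (by decide : ∀ a : Fin 6, (![1, 2, 2, 3, 2, 1] : Fin 6 → ℤ) a =
      ![0, 1, 0, 0, 0, 0] a + ![1, 1, 2, 3, 2, 1] a) (e i)
  have eB : B = A + lam e := hA ▸ hB ▸ funext fun i =>
    (by decide : ∀ a : Fin 6, (![1, 1, 2, 3, 2, 1] : Fin 6 → ℤ) a =
      ![0, 1, 0, 0, 0, 0] a + ![1, 0, 2, 3, 2, 1] a) (e i)
  have pB : B ∈ D.R.Pos := hB ▸ b_pos he hR
  have pθ : θ ∈ D.R.Pos := hθ ▸ t_pos he hR
  have p0 : ∀ γ, γ = A ∨ γ = B → γ ∈ D.R.Pos ∧ ∀ j, e j ≠ 1 ∧ e j ≠ 3 → D.R.pr γ j = 0 := by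
    rintro _ (rfl | rfl)
    · exact ⟨eA ▸ ⟨hR.simple _, RS.α_nonneg _⟩, fun j => hA ▸ rt_pr he _ j ▸ (by decide :
        ∀ a : Fin 6, a ≠ 1 ∧ a ≠ 3 → (![0, 1, 0, 0, 0, 0] ᵥ* CartanMatrix.E₆) a = 0) (e j)⟩
    · exact ⟨pB, fun j => hB ▸ rt_pr he _ j ▸ (by decide :
        ∀ a : Fin 6, a ≠ 1 ∧ a ≠ 3 → (![1, 1, 2, 3, 2, 1] ᵥ* CartanMatrix.E₆) a = 0) (e j)⟩
  have key : ∀ σ, ∃ w : D.R.Aut, (ε σ = 1 ∧ w A = A ∧ w B = B ∨ ε σ ≠ 1 ∧ w A = B ∧ w B = A) ∧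
      ∀ γ, γ = A ∨ γ = B → RA (GG D K) (T.a σ) σ γ (w γ) ∧ RA (GG D K) (T.a σ) σ (-γ) (-w γ) ∧
        ∀ t, T.a σ (co hΓ γ t) = co hΓ (w γ) (um σ t) := fun σ => by
    obtain ⟨g, hg, c, π, h⟩ := hT σ
    obtain ⟨n, w, hn, h1, h2⟩ := dich hΓ hR he (Subgroup.mem_sup_left hg) (ε := ε σ) fun s => by
      obtain ⟨s, rfl⟩ : ∃ t, um σ t = s := ⟨um σ.symm s, Units.ext (σ.apply_symm_apply _)⟩
      exact (std_co hΓ h (dg_lam he h.1) s).symm.trans (hε σ s)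
    rw [← hA, ← hB] at h2
    refine ⟨w, h2, fun γ hγ => ?_⟩
    have h3 := p0 (w γ) (by rcases h2 with h2 | h2 <;> rcases hγ with rfl | rfl <;> simp [h2])
    exact act hΓ hR hM (σ := σ.toRingEquiv) h hn h1 (p0 γ hγ).1.1 (by
      rcases hγ with rfl | rfl
      exacts [hA ▸ rt_inv he h.1 _ rfl rfl, hB ▸ rt_inv he h.1 _ rfl rfl]) h3.1 h3.2
  have kθ : ∀ σ, RA (GG D K) (T.a σ) σ θ θ ∧ ∀ t, T.a σ (co hΓ θ t) = co hΓ θ (um σ t) :=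
    fun σ => by
      obtain ⟨g, hg, c, π, h⟩ := hT σ
      have := act hΓ hR hM (σ := σ.toRingEquiv) h (RG.rep_T (one_mem _)) (J := J0 e)
        (mul_mem (Subgroup.mem_sup_left hg) (inv_mem (one_mem _))) pθ.1
        (hθ ▸ rt_inv he h.1 _ rfl rfl) pθ fun j hj => show D.R.pr θ j = 0 from
          hθ ▸ rt_pr he _ j ▸ (by decide :
            ∀ a : Fin 6, a ≠ 1 → (![1, 2, 2, 3, 2, 1] ᵥ* CartanMatrix.E₆) a = 0) (e j) hj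
      exact ⟨this.1, this.2.2⟩
  have q : D.R.pr B (e.symm 1) = -1 := by
    rw [hB, rt_pr he, e.apply_symm_apply]
    decide
  obtain ⟨u, hu, i, j, ui, uj⟩ := hM.pair hR (e.symm 1) pB (by omega)
  have aji : D.R.A j i = -1 := by rw [← RS.pr_α, ← uj, hR.pr_conj hu ui, q]
  have aij : D.R.A i j = -1 := by rw [← aji, he, he, CartanMatrix.E₆_isSymm.apply]
  have ij : i ≠ j := fun c => by
    rw [c, hR.diag] at aij
    omega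
  rw [eA] at ui
  obtain ⟨p, -, hp⟩ := RG.exists_rep' (Γ := GG D K) hu
  let ι : Fin 2 ↪ Fin D.R.r := ⟨![i, j], fun a b => by
    fin_cases a <;> fin_cases b <;> simp [ij, ij.symm]⟩
  have i0 : i ∈ Set.range ι := ⟨0, rfl⟩
  have i1 : j ∈ Set.range ι := ⟨1, rfl⟩
  have p1 : ∀ γ, γ = A ∨ γ = B → ∃ l ∈ Set.range ι, u γ = D.R.α l := by
    rintro _ (rfl | rfl)
    exacts [⟨i, i0, ui⟩, ⟨j, i1, uj⟩]
  have hS : ∀ σ, ∀ g ∈ LJ (GG D K) (Set.range ι),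
      (cj T p⁻¹).a σ g ∈ LJ (GG D K) (Set.range ι) := fun σ g => by
    refine st_of_ra hΓ hR (ψ := ((cj T p⁻¹).a σ).toMonoidHom) (σ := σ) fun l hl γ hγ => ?_
    obtain ⟨w, h1, h2⟩ := key σ
    have h3 : u⁻¹ (D.R.α l) = A ∨ u⁻¹ (D.R.α l) = B := by
      obtain ⟨l, rfl⟩ := hl
      fin_cases l
      exacts [.inl (ui ▸ RS.inv_app u A), .inr (uj ▸ RS.inv_app u B)]
    obtain ⟨l', h4, h5⟩ := p1 (w (u⁻¹ (D.R.α l)))
      (by rcases h1 with h1 | h1 <;> rcases h3 with h3 | h3 <;> simp [h1, h3])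
    have h6 := h2 _ h3
    rw [← RS.inv_app u (w _), h5, ← map_neg, ← map_neg] at h6
    rw [show ⇑((cj T p⁻¹).a σ).toMonoidHom = _ from funext (cj_a T p⁻¹ σ)]
    rcases hγ with rfl | rfl
    · exact ⟨_, hR.simple l', RS.In_α h4,
        ra_cj hΓ hR (σ := (σ : K →+* K)) hp.inv (hR.simple l) (hR.simple l') h6.1⟩
    · exact ⟨_, hR.neg_mem (hR.simple l'), (RS.In_α h4).neg, ra_cj hΓ hR (σ := (σ : K →+* K)) hp.inv
        (hR.neg_mem (hR.simple l)) (hR.neg_mem (hR.simple l')) h6.2.1⟩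
  have mS : ∀ γ, γ = A ∨ γ = B → ∀ t, p * co hΓ γ t * p⁻¹ ∈ LJ (GG D K) (Set.range ι) :=
    fun γ hγ t => by
      obtain ⟨l, h1, h2⟩ := p1 γ hγ
      rw [rep_cor hΓ hR hM hp, h2, RS.α, co_single]
      exact P011UGC5.TJ_le_LJ hΓ hR (P011UGC5.h_TJ h1 t)
  have m2 : ∀ s t, p * (co hΓ A s * co hΓ B t) * p⁻¹ ∈ LJ (GG D K) (Set.range ι) := fun s t => by
    rw [← conj_mul]
    exact mul_mem (mS A (.inl rfl) s) (mS B (.inr rfl) t)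
  have mθ : ∀ t, p * co hΓ θ t * p⁻¹ ∈ LJ (GG D K) (Set.range ι) := fun t => by
    rw [eθ, co_add]
    exact m2 t t
  have h0 : pw θ θ ≠ 0 := by
    rw [hθ, rt_pw he]
    decide
  have cp : ∀ x, p⁻¹ * (p * x * p⁻¹) * p⁻¹⁻¹ = x := fun x => by group
  have fx : ∀ x ∈ T.fix, p * x * p⁻¹ ∈ (cj T p⁻¹).fix := fun x hx => fix_cj.2 ((cp x).symm ▸ hx)
  have ps := an ia hk hD two_pos ι (fun a b => by
      fin_cases a <;> fin_cases b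
      exacts [hR.diag i, aij, aji, hR.diag j]) hS
    (not_ani' hS pθ.1 h0 p mθ fun σ t => by
      rw [cj_a, cp, (kθ σ).2, inv_inv]
      rfl)
  obtain ⟨v, v0, v1⟩ := fixroot pθ.1 fun σ => (kθ σ).1
  obtain ⟨t, ht⟩ := exists_gen (K := k) θ
  have tg : (GG D K).h (e.symm 1) (a * b) * co hΓ (lam e) a = co hΓ A b * co hΓ B a := by
    rw [eB, co_add, ← eA, RS.α, co_single, co_single, ← mul_assoc, ← map_mul, mul_comm b]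
  have uθ : (GG D K).x θ v ∈ UP (GG D K) (J0 e) :=
    RG.x_mem (S := {γ | 0 ≤ γ ∧ ¬D.R.In (J0 e) γ}) pθ.1 ⟨pθ.2, fun c => by
      have := c (e.symm 1) fun c => c (e.apply_symm_apply 1)
      rw [hθ, rt, e.apply_symm_apply] at this
      exact absurd this (by decide)⟩ _
  rw [tg, ← cp (_ * _)]
  refine of_ps hS ps (N.comap (MulAut.conj p⁻¹).toMonoidHom) (fun g h1 _ => nm_cj hN p⁻¹ g h1)
    (a := p * (GG D K).x θ v * p⁻¹) ((cp _).symm ▸ hU _ v1 uθ :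
      p⁻¹ * (p * _ * p⁻¹) * p⁻¹⁻¹ ∈ N) (fx _ v1) ?_
    (fx (co hΓ θ (Units.map (algebraMap k K).toMonoidHom t)) fun σ =>
      ((kθ σ).2 _).trans (congrArg _ (Units.ext (σ.commutes t)))) (mθ _)
    (fun c => ht _ pθ.1 h0 ?_) (fx _ fun σ => ?_) (m2 _ _)
  · obtain ⟨d, hd⟩ := hΓ.rep_conj hR hp pθ.1
    rw [(hd v).1]
    refine RG.x_mem (hR.map_mem hu pθ.1) ?_ _
    rw [eθ, map_add, ui, uj]
    exact (RS.In_α i0).add (RS.In_α i1)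
  · have h3 := co_x hΓ (m := θ) pθ.1 (Units.map (algebraMap k K).toMonoidHom t) v
    rw [conj_mul, conj_mul, mul_left_inj, mul_right_inj] at c
    rw [← c, mul_inv_cancel_right] at h3
    refine Units.map_injective (f := (algebraMap k K).toMonoidHom) (algebraMap k K).injective ?_
    rw [map_zpow, map_one]
    exact Units.ext (mul_right_cancel₀ v0 ((hΓ.x_inj hR pθ.1 h3).symm.trans (one_mul v).symm))
  · obtain ⟨w, h1, h2⟩ := key σ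
    rw [map_mul, (h2 A (.inl rfl)).2.2, (h2 B (.inr rfl)).2.2]
    rcases h1 with ⟨h1, h3, h4⟩ | ⟨h1, h3, h4⟩ <;> rw [h3, h4]
    · rw [show um σ a = a from Units.ext ((hs σ).1 h1).1,
        show um σ b = b from Units.ext ((hs σ).1 h1).2]
    · rw [show um σ a = b from Units.ext ((hs σ).2 h1).1,
        show um σ b = a from Units.ext ((hs σ).2 h1).2, hΓ.T_comm (co_mem hΓ a) (co_mem hΓ b)]

/-- The stable subgroup of type `A₂`. -/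
theorem a2t (ia : IA) : A2T := by
  intro k K _ _ _ _ D hk hD T e he ⟨g, c, π, h, h1⟩ N hN hU y hy ε hε a b hs
  have hR := R_ok D
  refine tool ia hk hD he (T := cj T y)
    (N := (N.map T.fix.subtype).comap (MulAut.conj y).toMonoidHom) (fun σ => ?_)
    (nm_cj (by
      rintro g hg _ ⟨x, hx, rfl⟩
      exact ⟨_, hN.conj_mem x hx ⟨g, hg⟩, rfl⟩) y)
    (fun u u1 u2 => ⟨⟨_, fix_cj.1 u1⟩, hU _
      (nm_UP GG_ok hR y (GJ_le_PJ (Subgroup.mem_sup_left hy)) u u2), rfl⟩) (ε := ε)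
    (fun σ t => by
      rw [cj_a, hε]
      group) hs
  have h := h.1 σ
  refine ⟨y⁻¹ * (g σ * ((g σ)⁻¹ * T.a σ y * g σ)), mul_mem (inv_mem hy) (mul_mem (h1 σ).1
    (std_X GG_ok h hR (fun γ r _ => pm_In (h1 σ).2 r) hy)), c σ, π σ, h.1, fun j u => ?_⟩
  simp only [cj_a, map_mul, map_inv, (h.2 j u).1, (h.2 j u).2]
  exact ⟨by group, by group⟩

end Vale.Agent.P011UF2j
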