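import Vale.Agent.P011UTS.Co
import Vale.Agent.P011UD7.Sl
import Vale.Agent.P011UGR1.Sub
import Vale.Agent.P011UGC5.Lv
import Vale.Agent.P011UP.Lev

/-!
Cocharacters and centralisers; the roots of `E₆` which are orthogonal to `A₂ × A₂`.
-/

set_option autoImplicit false
set_option linter.all false

namespace Vale.Agent.P011UF2j

open Matrix Subgroup Vale.Agent.P183CH Vale.Agent.P183CH.RG Vale.Agent.P011U Vale.Agent.P011UP
  Vale.Agent.P011UTS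

variable {R : RS} {K G : Type} [Field K] [Group G] {Γ : RG R K G} {m m' : Fin R.r → ℤ}
  {J : Set (Fin R.r)} {g n : G} {w : R.Aut} {γ : R.Q} {N : ℤ}

theorem pw_single (γ : R.Q) (i : Fin R.r) : pw (Pi.single i 1) γ = R.pr γ i := by
  simp [pw, Pi.single_apply]

section
variable (hΓ : Γ.Ok)

theorem co_add (m m' : Fin R.r → ℤ) (t : Kˣ) : co hΓ (m + m') t = co hΓ m t * co hΓ m' t := by
  rw [co_eq, co_eq, co_eq, ← map_mul]
  exact congrArg _ (funext fun i => _root_.zpow_add t _ _)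

theorem co_single (i : Fin R.r) (t : Kˣ) : co hΓ (Pi.single i 1) t = Γ.h i t := by
  rw [co_eq, ← hΓ.hT_single]
  refine congrArg _ (funext fun j => ?_)
  simp only [Pi.single_apply, Pi.mulSingle_apply]
  split_ifs <;> simp

theorem co_cen (hg : g ∈ Γ.GJ J) (h : ∀ j ∈ J, pw m (R.α j) = 0) (t : Kˣ) :
    g * co hΓ m t * g⁻¹ = co hΓ m t := by
  refine mul_inv_eq_iff_eq_mul.2 (mem_centralizer_singleton_iff.1
    ((sup_le (X_le fun γ h1 h2 a => ?_) fun t' h => ?_ : _ ≤ centralizer {co hΓ m t}) hg))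
  · refine mem_centralizer_singleton_iff.2 (mul_inv_eq_iff_eq_mul.1 ?_).symm
    have : pw m γ = 0 := pw_eq (m := m) γ ▸ Finset.sum_eq_zero fun i _ => by
      by_cases e : i ∈ J
      · rw [h i e, mul_zero]
      · rw [h1 i e, zero_mul]
    simp [co_x hΓ h2, this]
  · exact mem_centralizer_singleton_iff.2 (hΓ.T_comm h (co_mem hΓ t))

variable (hR : R.Ok)
include hR

theorem rep_co' [Infinite K] (hn : Γ.Rep n w) (h : ∀ i, pw m (w (R.α i)) = pw m' (R.α i)) (t : Kˣ) :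
    n * co hΓ m' t * n⁻¹ = co hΓ m t := by
  obtain ⟨m1, e⟩ := rep_co hΓ hR hn m'
  have h1 : ∀ γ, pw m (w γ) = pw m' γ := fun γ => by
    rw [pw_eq γ, RS.map_eq]
    simp only [← h, ← pw_smul]
    exact map_sum (AddMonoidHom.mk' (pw m) pw_add) _ _
  rw [e, pw_inj hR (m := m1) (m' := m) fun i => by
    rw [← RS.app_inv w (R.α i), pw_rep hΓ hR hn e, h1]]

include hΓ

theorem cen (hN : P011UD7.SL R N) (hγ : γ ∈ R.Pos) (h : ∀ j ∈ J, R.pr γ j = 0) (hg : g ∈ LJ Γ J)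
    {δ : R.Q} (hδ : δ = γ ∨ δ = -γ) (t : K) : g * Γ.x δ t * g⁻¹ = Γ.x δ t := by
  rw [LJ_eq hR hΓ] at hg
  refine mul_inv_eq_iff_eq_mul.2 (mem_centralizer_singleton_iff.1
    ((closure_le (centralizer {Γ.x δ t})).2 ?_ hg))
  rintro g ⟨k, hk, s, hg⟩
  obtain ⟨u, hu, i, j, e1, e2⟩ := hN.pair hR k hγ (h k hk).le
  obtain ⟨n, -, hn⟩ := exists_rep' (Γ := Γ) (inv_mem hu)
  have a : R.A j i = 0 := by rw [← RS.pr_α, ← e2, hR.pr_conj hu e1, h k hk]
  have b : ∀ {i : Fin R.r} {β : R.Q}, β = R.α i ∨ β = -R.α i → β ∈ R.Φ ∧ R.In {i} β := by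
    rintro i _ (rfl | rfl)
    exacts [⟨hR.simple i, RS.In_α (Set.mem_singleton i)⟩,
      ⟨hR.neg_mem (hR.simple i), (RS.In_α (Set.mem_singleton i)).neg⟩]
  have c : ∀ {β : R.Q}, β = R.α k ∨ β = -R.α k → Commute (Γ.x β s) (Γ.x δ t) := fun {β} e => by
    have b1 := b (i := i) (β := u β) (e.imp (fun e => by rw [e, e1]) fun e => by rw [e, map_neg, e1])
    have b2 := b (i := j) (β := u δ) (hδ.imp (fun e => by rw [e, e2]) fun e => by
      rw [e, map_neg, e2])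
    have := P011UGR1.comm_rep hΓ hR hn b1.1 b2.1 (fun _ _ => P011UGR1.comm_LJ hΓ hR
      (J := {i}) (J' := {j}) (by rintro _ rfl _ rfl; exact hR.A_zero_comm.1 a)
      (x_mem b1.1 b1.2 _) (x_mem b2.1 b2.2 _)) s t
    rwa [RS.inv_app, RS.inv_app] at this
  refine mem_centralizer_singleton_iff.2 ?_
  rcases hg with rfl | rfl
  exacts [c (.inl rfl), c (.inr rfl)]

theorem scal (hN : P011UD7.SL R N) (hγ : γ ∈ R.Pos) (h : ∀ j ∈ J, R.pr γ j = 0)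
    (hg : g ∈ Γ.GJ J) {δ : R.Q} (hδ : δ = γ ∨ δ = -γ) :
    ∃ d : K, ∀ t, g * Γ.x δ t * g⁻¹ = Γ.x δ (d * t) := by
  obtain ⟨l, hl, s, hs, rfl⟩ := GJ_split hΓ hg
  refine ⟨_, fun t => Eq.trans ?_ (cen hΓ hR hN hγ h hl hδ (hΓ.chi δ s * t))⟩
  rw [← hΓ.tx hs (hδ.elim (fun e => e ▸ hγ.1) fun e => e ▸ hR.neg_mem hγ.1)]
  group

omit hΓ in
theorem pw_B (hN : P011UD7.SL R N) (m γ : R.Q) : pw m γ * N = 2 * R.B m γ := by
  rw [pw, hR.B_sum, Finset.sum_mul, Finset.mul_sum]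
  exact Finset.sum_congr rfl fun i _ => by
    rw [mul_right_comm, hN.pr hR, hR.B_comm, mul_assoc, mul_comm (m i)]

omit hΓ in
theorem pw_pr (hN : P011UD7.SL R N) (m : R.Q) (j : Fin R.r) : pw m (R.α j) = R.pr m j :=
  mul_right_cancel₀ (hN.pos hR).ne' (by rw [pw_B hR hN, hN.pr hR])

theorem rep_cor [Infinite K] (hN : P011UD7.SL R N) (hn : Γ.Rep n w) (m : R.Q) (t : Kˣ) :
    n * co hΓ m t * n⁻¹ = co hΓ (w m) t := rep_co' hΓ hR hn (fun i =>
  mul_right_cancel₀ (hN.pos hR).ne' (by rw [pw_B hR hN, pw_B hR hN, hR.B_inv hn.mem_W])) t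

end

variable (e : Fin R.r ≃ Fin 6)

/-- vectors in the standard numbering -/
def rt (v : Fin 6 → ℤ) : R.Q := fun i => v (e i)

/-- the simple reflections -/
def s6 (b : Fin 6) (v : Fin 6 → ℤ) : Fin 6 → ℤ := v - (v ᵥ* CartanMatrix.E₆) b • Pi.single b 1

/-- the pairing -/
def p6 (m v : Fin 6 → ℤ) : ℤ := (v ᵥ* CartanMatrix.E₆) ⬝ᵥ m

/-- the word which exchanges the two halves of the subsystem of type `A₅` -/
def l1 : List (Fin 6) := [3, 4, 2, 5, 0, 3, 4, 2, 3]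

/-- its value -/
noncomputable def w1 : R.Aut := R.wd (l1.map e.symm)

theorem rt_α (a : Fin 6) : R.α (e.symm a) = rt e (Pi.single a 1) := funext fun i => by
  simp [rt, RS.α_apply, Pi.single_apply, Equiv.eq_symm_apply]

theorem rt_α' (i : Fin R.r) : R.α i = rt e (Pi.single (e i) 1) := by
  rw [← rt_α, e.symm_apply_apply]

theorem w1_mem : w1 e ∈ R.WJ {j | e j ≠ 1} := RS.wd_mem fun i hi => by
  obtain ⟨a, ha, rfl⟩ := List.mem_map.1 hi
  show e (e.symm a) ≠ 1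
  rw [e.apply_symm_apply]
  exact (by decide : ∀ a ∈ l1, a ≠ 1) a ha

variable {e} (he : Ty R CartanMatrix.E₆ e)
include he

theorem rt_pr (v : Fin 6 → ℤ) (j : Fin R.r) : R.pr (rt e v) j = (v ᵥ* CartanMatrix.E₆) (e j) := by
  rw [RS.pr_eq, vecMul, dotProduct, ← e.sum_comp]
  simp only [he _ _, rt]

theorem rt_pw (m v : Fin 6 → ℤ) : pw (rt e m) (rt e v) = p6 m v := by
  rw [pw, p6, dotProduct, ← e.sum_comp]
  simp only [rt_pr he, rt]

theorem rt_pwα (m : Fin 6 → ℤ) (i : Fin R.r) :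
    pw (rt e m) (R.α i) = p6 m (Pi.single (e i) 1) := by rw [rt_α' e, rt_pw he]

theorem rt_dom (m : Fin 6 → ℤ) (P : Fin 6 → Prop) (h1 : ∀ a, P a → p6 m (Pi.single a 1) = 0)
    (h2 : ∀ a, ¬P a → 0 < p6 m (Pi.single a 1)) : Dom (rt e m) {j | P (e j)} :=
  ⟨fun i hi => rt_pwα he m i ▸ h1 _ hi, fun i hi => rt_pwα he m i ▸ h2 _ hi⟩

theorem rt_inv {π : Equiv.Perm (Fin R.r)} (hπ : Dg R π) (v : Fin 6 → ℤ) (h1 : v 0 = v 5)
    (h2 : v 2 = v 4) (i : Fin R.r) : rt e v (π i) = rt e v i := by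
  have := (he.au hπ).vec (by rw [CartanMatrix.E₆_det]; decide) ![16, 22, 30, 42, 30, 16]
    (by decide) (e i)
  rw [Equiv.permCongr_apply, e.symm_apply_apply] at this
  show v _ = v _
  generalize e (π i) = a, e i = b at this
  fin_cases a <;> fin_cases b <;> simp_all

theorem rt_pm {π : Equiv.Perm (Fin R.r)} (hπ : Dg R π) (v : Fin 6 → ℤ) (h1 : v 0 = v 5)
    (h2 : v 2 = v 4) : pm π (rt e v) = rt e v := funext fun i => by
  rw [pm, ← rt_inv he hπ v h1 h2, Equiv.apply_symm_apply]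

variable (hR : R.Ok)
include hR

theorem rt_s (b : Fin 6) (v : Fin 6 → ℤ) : R.sE (e.symm b) (rt e v) = rt e (s6 b v) := by
  rw [hR.sE_eq, rt_pr he, rt_α, e.apply_symm_apply]
  rfl

theorem rt_wd (l : List (Fin 6)) (v : Fin 6 → ℤ) :
    R.wd (l.map e.symm) (rt e v) = rt e (l.foldr s6 v) := by
  induction l with
  | nil => rfl
  | cons b l ih => rw [List.map_cons, RS.wd_cons, RS.mul_app, ih, rt_s he hR, List.foldr_cons]

theorem w1_pw (m m' : Fin 6 → ℤ)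
    (h : ∀ a, p6 m (l1.foldr s6 (Pi.single a 1)) = p6 m' (Pi.single a 1)) (i : Fin R.r) :
    pw (rt e m) (w1 e (R.α i)) = pw (rt e m') (R.α i) := by
  rw [rt_α' e, w1, rt_wd he hR, rt_pw he, rt_pw he, h]

theorem w1_a : w1 e (rt e ![0, 1, 0, 0, 0, 0]) = rt e ![1, 1, 2, 3, 2, 1] :=
  (rt_wd he hR _ _).trans (congrArg _ (by decide))

theorem w1_b : w1 e (rt e ![1, 1, 2, 3, 2, 1]) = rt e ![0, 1, 0, 0, 0, 0] :=
  (rt_wd he hR _ _).trans (congrArg _ (by decide))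

omit he hR in
theorem a_eq : R.α (e.symm 1) = rt e ![0, 1, 0, 0, 0, 0] := (rt_α e 1).trans (congrArg _ (by decide))

theorem b_pos : rt e ![1, 1, 2, 3, 2, 1] ∈ R.Pos :=
  ⟨w1_a he hR ▸ hR.map_mem (RS.WJ_le _ (w1_mem e)) (a_eq (e := e) ▸ hR.simple _), fun i =>
    (by decide : ∀ a : Fin 6, (0 : ℤ) ≤ (![1, 1, 2, 3, 2, 1] : Fin 6 → ℤ) a) (e i)⟩

theorem t_pos : rt e ![1, 2, 2, 3, 2, 1] ∈ R.Pos :=
  ⟨by
    have := hR.map_mem (RS.sE_mem_W (e.symm 1)) (b_pos he hR).1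
    rwa [rt_s he hR, show s6 1 ![1, 1, 2, 3, 2, 1] = ![1, 2, 2, 3, 2, 1] by decide] at this,
  fun i => (by decide : ∀ a : Fin 6, (0 : ℤ) ≤ (![1, 2, 2, 3, 2, 1] : Fin 6 → ℤ) a) (e i)⟩

theorem sl_E6 : ∃ N, P011UD7.SL R N :=
  P011UD7.sl_of hR fun i j => by rw [he, he, CartanMatrix.E₆_isSymm.apply]

end Vale.Agent.P011UF2j
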